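import Vale.Agent.P150.Planted.Critical

/-!
Critical slowing down of Glauber dynamics of the Sherrington–Kirkpatrick model is polynomial, and
below criticality the gap is at most a constant times `(1 - β) ^ 2`.
-/

namespace Vale.Agent.Results.P150.CriticalGap

open Filter MeasureTheory Vale.Agent.P150
open scoped Topology

/-- At `β = 1`, for each `a < 1/6`, with probability tending to one both `1 / gap` and the mixing
time exceed `n ^ a`; and for some universal `C`, for every fixed `β < 1`, with probability tending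
to one every gap bound is at most `C (1 - β) ^ 2`. -/
theorem result :
    (∀ a : ℝ, a < 1 / 6 →
      Tendsto (fun n => disorder n {g |
        (∃ γ : ℝ, 0 < γ ∧ 1 ≤ γ * (n : ℝ) ^ a ∧ GapAtLeast (skJ n 1 g) 0 γ) ∨
        ∃ t : ℝ, 0 ≤ t ∧ t ≤ (n : ℝ) ^ a ∧ ∀ x, tvGibbs (skJ n 1 g) 0 t x ≤ 1 / 4})
        atTop (𝓝 0)) ∧
    ∃ C : ℝ, 0 < C ∧ ∀ β : ℝ, 0 ≤ β → β < 1 →
      Tendsto (fun n => disorder n
        {g | ∃ γ : ℝ, C * (1 - β) ^ 2 < γ ∧ GapAtLeast (skJ n β g) 0 γ}) atTop (𝓝 0) :=
  ⟨fun _ => Planted.critical_polynomial, Planted.subcritical_gap⟩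

end Vale.Agent.Results.P150.CriticalGap
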