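import Vale.Agent.P150.Log.Upper
import Vale.Agent.P150.Log.Lower

/-!
Heat-bath dynamics of the Sherrington–Kirkpatrick model: mixing time at least of order `log n` at
every inverse temperature, and of order exactly `log n`, with gap of order one, below one half.
-/

namespace Vale.Agent.Results.P150.OrderBelowHalf

open Filter MeasureTheory Vale.Agent.P150
open scoped Topology

/-- For every `β ≥ 0`, with probability tending to one, in zero field every gap bound is at most
one and no time up to `c log n` is mixed; for `β < 1/2` the gap is bounded below in every field and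
`C log n` mixes in zero field. -/
theorem result : ∀ β : ℝ, 0 ≤ β →
    (∃ c : ℝ, 0 < c ∧ Tendsto (fun n ↦ disorder n {g |
      (∀ γ : ℝ, GapAtLeast (skJ n β g) 0 γ → γ ≤ 1) ∧
      ∀ t : ℝ, 0 ≤ t → t ≤ c * Real.log n → ∃ x, 1 / 4 < tvGibbs (skJ n β g) 0 t x}) atTop (𝓝 1)) ∧
    (β < 1 / 2 → ∀ ε : ℝ, 0 < ε → ∃ C : ℝ, Tendsto (fun n ↦ disorder n {g |
      (∀ h : Fin n → ℝ, GapAtLeast (skJ n β g) h (1 - 2 * β - ε)) ∧
      ∀ t : ℝ, C * Real.log n ≤ t → ∀ x, tvGibbs (skJ n β g) 0 t x ≤ 1 / 4}) atTop (𝓝 1)) := by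
  intro β hb
  refine ⟨?_, fun h2 ε he ↦ LogUpper.mixing_below_half β hb h2 ε he⟩
  set a : ℝ := 2 * β + 1 with haa
  have ha : 0 < a := by linarith
  set K := LogLow.rateK a with hK
  have hK1 : 1 ≤ K := LogLow.rateK_pos a
  refine ⟨1 / (2 * (K + 3)), by positivity, ?_⟩
  refine tendsto_of_tendsto_of_tendsto_of_le_of_le' (sk_norm hb one_pos) tendsto_const_nhds ?_ ?_
  · filter_upwards [eventually_ge_atTop ⌈K⌉₊, eventually_gt_atTop 4096] with n hnK hn
    refine measure_mono fun g hg ↦ ⟨fun γ hγ ↦ LogLow.gap_le_one (by omega) hγ, fun t ht htc ↦ ?_⟩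
    have hnK' : K ≤ n := (Nat.le_ceil K).trans (by exact_mod_cast hnK)
    refine LogLow.not_mixed_log ha (fun v ↦ (hg v).1) hnK' ht ?_
    have hn' : (4096 : ℝ) < n := by exact_mod_cast hn
    have h1 : (K + 3) * t ≤ Real.log n / 2 := by
      rw [div_mul_eq_mul_div, one_mul, le_div_iff₀ (by positivity)] at htc
      linarith
    have h2 : t * Real.exp ((K + 2) * t) ≤ √(n : ℝ) := by
      calc t * Real.exp ((K + 2) * t) ≤ Real.exp t * Real.exp ((K + 2) * t) :=
            mul_le_mul_of_nonneg_right (by linarith [Real.add_one_le_exp t]) (Real.exp_pos _).le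
        _ = Real.exp ((K + 3) * t) := by rw [← Real.exp_add]; ring_nf
        _ ≤ Real.exp (Real.log n / 2) := Real.exp_le_exp.2 h1
        _ = √(n : ℝ) := by rw [Real.exp_half, Real.exp_log (by linarith)]
    have h3 : (64 : ℝ) < √(n : ℝ) := Real.lt_sqrt (by norm_num) |>.2 (by linarith)
    calc 64 * t * Real.exp ((K + 2) * t) = 64 * (t * Real.exp ((K + 2) * t)) := by ring
      _ ≤ 64 * √(n : ℝ) := by linarith
      _ < √(n : ℝ) * √(n : ℝ) := mul_lt_mul_of_pos_right h3 (by linarith)
      _ = n := Real.mul_self_sqrt (by linarith)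
  · refine Eventually.of_forall fun n ↦ ?_
    have : IsProbabilityMeasure (disorder n) := by unfold disorder; infer_instance
    exact prob_le_one

end Vale.Agent.Results.P150.OrderBelowHalf
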