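import Vale.Agent.P150.SlowTight

/-!
Glauber dynamics of the Sherrington–Kirkpatrick model is not fast at any inverse temperature above
the critical one.
-/

namespace Vale.Agent.Results.P150.SlowAboveCritical

open Filter MeasureTheory Vale.Agent.P150
open scoped Topology

/-- For `β > 1`: for every `η > 0` there is `c > 0` with probability at least `1 - η`,
eventually in `n`, that every gap bound `γ` has `γ c n ≤ 1` and no time up to `c n` mixes to total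
variation `1/4`; hence for every `T n = o(n)` the probability of a gap at least `1 / T n` or of
mixing by time `T n` tends to zero. -/
theorem result : ∀ β : ℝ, 1 < β →
    (∀ η : ℝ, 0 < η → ∃ c : ℝ, 0 < c ∧ ∀ᶠ n in atTop, disorder n {g | ¬
      ((∀ γ : ℝ, 0 < γ → GapAtLeast (skJ n β g) 0 γ → γ * (c * n) ≤ 1) ∧
        ∀ t : ℝ, 0 ≤ t → t ≤ c * n → ∃ x, 1 / 4 < tvGibbs (skJ n β g) 0 t x)} ≤
      ENNReal.ofReal η) ∧
    ∀ T : ℕ → ℝ, Tendsto (fun n ↦ T n / n) atTop (𝓝 0) →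
      Tendsto (fun n ↦ disorder n {g |
        (∃ γ : ℝ, 0 < γ ∧ 1 ≤ γ * T n ∧ GapAtLeast (skJ n β g) 0 γ) ∨
        ∃ t : ℝ, 0 ≤ t ∧ t ≤ T n ∧ ∀ x, tvGibbs (skJ n β g) 0 t x ≤ 1 / 4}) atTop (𝓝 0) := by
  intro β hβ
  have main : ∀ η : ℝ, 0 < η → ∃ c : ℝ, 0 < c ∧ ∀ᶠ n in atTop, disorder n {g | ¬
      ((∀ γ : ℝ, 0 < γ → GapAtLeast (skJ n β g) 0 γ → γ * (c * n) ≤ 1) ∧
        ∀ t : ℝ, 0 ≤ t → t ≤ c * n → ∃ x, 1 / 4 < tvGibbs (skJ n β g) 0 t x)} ≤
      ENNReal.ofReal η := by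
    intro η hη
    obtain ⟨δ, hδ, hev⟩ := Slow.tight β hβ hη
    obtain ⟨k, hk⟩ := exists_pow_lt_of_lt_one (half_pos hδ) (by norm_num : (1 / 2 : ℝ) < 1)
    refine ⟨δ / (4 * k + 1), by positivity, ?_⟩
    filter_upwards [hev, eventually_gt_atTop 0] with n h hn
    refine le_trans (measure_mono ?_) h
    intro g hg
    by_contra hq
    have hq' : δ ≤ Slow.q2 (skJ n β g) := (not_le.1 hq).le
    have hn' : (0 : ℝ) < n := by exact_mod_cast hn
    have hk1 : (1 : ℝ) ≤ 4 * k + 1 := by linarith [(Nat.cast_nonneg k : (0 : ℝ) ≤ k)]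
    refine hg ⟨fun γ hγ hgap ↦ ?_, fun t ht htn ↦ ?_⟩
    · refine le_trans ?_ (Slow.gap_le _ hn hγ.le hgap)
      refine mul_le_mul_of_nonneg_left ?_ hγ.le
      rw [mul_comm (n : ℝ)]
      exact mul_le_mul_of_nonneg_right ((div_le_self hδ.le hk1).trans hq') hn'.le
    · refine Slow.not_mixed _ hn hq' hk ht ?_
      rw [div_mul_eq_mul_div, le_div_iff₀ (by positivity)] at htn
      linarith
  refine ⟨main, fun T hT ↦ ENNReal.tendsto_nhds_zero.2 fun e he ↦ ?_⟩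
  obtain ⟨η, -, hη, hηe⟩ : ∃ η : ℝ, 0 ≤ η ∧ 0 < η ∧ ENNReal.ofReal η ≤ e := by
    rcases eq_or_ne e ⊤ with h | h
    · exact ⟨1, zero_le_one, one_pos, h ▸ le_top⟩
    · exact ⟨e.toReal, e.toReal_nonneg, ENNReal.toReal_pos he.ne' h, ENNReal.ofReal_toReal_le⟩
  obtain ⟨c, hc, hev⟩ := main η hη
  filter_upwards [hev, hT.eventually (eventually_lt_nhds hc), eventually_gt_atTop 0] with n h hTn hn
  refine le_trans (le_trans (measure_mono ?_) h) hηe
  have hn' : (0 : ℝ) < n := by exact_mod_cast hn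
  rw [div_lt_iff₀ hn'] at hTn
  rintro g (⟨γ, hγ, h1, hgap⟩ | ⟨t, ht, htT, hmix⟩) hgood
  · have h2 := hgood.1 γ hγ hgap
    have h3 := mul_lt_mul_of_pos_left hTn hγ
    linarith
  · obtain ⟨x, hx⟩ := hgood.2 t ht (htT.trans hTn.le)
    exact absurd (hmix x) (not_le.2 hx)

end Vale.Agent.Results.P150.SlowAboveCritical
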